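import Vale.Agent.P054.Bound

/-!
# Distinct distances in dimension `d`

Every `n`-point set in `ℝ^d` determines at least `c n^(2/d - 1/d²) / (log n)^A` distances.
-/

namespace Vale.Agent.Results.P054.DistancesHighDim

open Vale.Agent.P054

theorem result : ∀ d : ℕ, 1 ≤ d → ∃ c : ℝ, 0 < c ∧ ∃ A : ℕ,
    ∀ P : Finset (EuclideanSpace ℝ (Fin d)), 2 ≤ P.card →
      c * (P.card : ℝ) ^ ((2 * (d : ℝ) - 1) / (d : ℝ) ^ 2) / Real.log (P.card : ℝ) ^ A ≤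
        (Set.ncard {ρ : ℝ | ∃ x ∈ P, ∃ y ∈ P, x ≠ y ∧ dist x y = ρ} : ℝ) := by
  intro d hd
  obtain ⟨B, A, hB, hbound⟩ := exists_pointsBound d
  obtain ⟨c, hc, hlow⟩ := lower_of_upper hd hB A
  refine ⟨c, hc, A, fun P hP => ?_⟩
  have hset : {ρ : ℝ | ∃ x ∈ P, ∃ y ∈ P, x ≠ y ∧ dist x y = ρ} = ↑(dists P) := by
    classical
    ext ρ
    simp only [dists, Finset.coe_image, Set.mem_image, Finset.mem_coe, Finset.mem_offDiag]
    constructor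
    · rintro ⟨x, hx, y, hy, hne, rfl⟩
      exact ⟨(x, y), ⟨hx, hy, hne⟩, rfl⟩
    · rintro ⟨⟨x, y⟩, ⟨hx, hy, hne⟩, rfl⟩
      exact ⟨x, hx, y, hy, hne, rfl⟩
  rw [hset, Set.ncard_coe_finset]
  refine hlow P.card (dists P).card hP ?_ (hbound _ P le_rfl)
  obtain ⟨x, hx, y, hy, hne⟩ := Finset.one_lt_card.1 hP
  exact Finset.card_pos.2 ⟨_, mem_dists hx hy hne⟩

end Vale.Agent.Results.P054.DistancesHighDim
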