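import Vale.Agent.P054.Dense

/-!
P054: distinct distances determined by subsets of grids.
-/

theorem Vale.Agent.Results.P054.GridSubsets.result :
    ∀ d : ℕ, 3 ≤ d → ∃ c : ℝ, 0 < c ∧ ∀ (t : ℕ) (P : Finset (EuclideanSpace ℝ (Fin d))),
      (∀ p ∈ P, ∀ i, ∃ k : ℕ, 1 ≤ k ∧ k ≤ t ∧ p i = k) → 2 ≤ P.card →
      c * (P.card : ℝ) ^ 2 / (t : ℝ) ^ (2 * d - 2) ≤
          ((P.offDiag.image fun q => dist q.1 q.2).card : ℝ) ∧
        ∀ δ : ℝ, 0 < δ → δ * (t : ℝ) ^ d ≤ P.card →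
          c * δ ^ 2 * (P.card : ℝ) ^ ((2 : ℝ) / d) ≤
            ((P.offDiag.image fun q => dist q.1 q.2).card : ℝ) :=
  Vale.Agent.P054.grid_distances
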